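import Vale.Agent.P292.Bdl.B4

/-! # Frames: symplectic coordinates near a nonvertex point. -/

namespace Vale.Agent.P292

open Module

universe u v

variable {R : Type u} [CommRing R] [Algebra ℂ R] {𝒜 : ℕ → Submodule ℂ R} [GradedAlgebra 𝒜]
  {P : R →ₗ[ℂ] R →ₗ[ℂ] R}

/-- The matrix of brackets of a family. -/
def brMat (P : R →ₗ[ℂ] R →ₗ[ℂ] R) {N : ℕ} (x : Fin N → R) : Matrix (Fin N) (Fin N) R :=
  Matrix.of fun i j => P (x i) (x j)

@[simp] lemma brMat_apply {N : ℕ} (x : Fin N → R) (i j : Fin N) :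
    brMat P x i j = P (x i) (x j) := rfl

lemma brMat_transpose (hX : IsContactFano 𝒜 P) {N : ℕ} (x : Fin N → R) :
    (brMat P x).transpose = -brMat P x := by
  ext i j
  rw [Matrix.transpose_apply, Matrix.neg_apply, brMat_apply, brMat_apply, hX.skew]

/-- A nondegenerate frame has even rank. -/
lemma even_of_det_ne_zero (hX : IsContactFano 𝒜 P) {N : ℕ} (x : Fin N → R)
    (h : (brMat P x).det ≠ 0) : Even N := by
  have := hX.domain
  have : CharZero R := charZero_of_injective_algebraMap (algebraMap ℂ R).injective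
  by_contra hN
  rw [Nat.not_even_iff_odd] at hN
  have h1 : (brMat P x).det = -(brMat P x).det := by
    conv_lhs => rw [← Matrix.det_transpose, brMat_transpose hX, Matrix.det_neg,
      Fintype.card_fin, hN.neg_one_pow, neg_one_mul]
  exact h (self_eq_neg.mp h1)

/-- The adjugate of the matrix of brackets of a nondegenerate frame is alternating. -/
lemma adjugate_brMat_swap (hX : IsContactFano 𝒜 P) {N : ℕ} (x : Fin N → R)
    (h : (brMat P x).det ≠ 0) (i j : Fin N) :
    (brMat P x).adjugate j i = -(brMat P x).adjugate i j := by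
  have h1 : (brMat P x).adjugate.transpose = -(brMat P x).adjugate := by
    rw [Matrix.adjugate_transpose, brMat_transpose hX]
    have h2 : -brMat P x = (-1 : R) • brMat P x := by rw [neg_smul, one_smul]
    rw [h2, Matrix.adjugate_smul, Fintype.card_fin]
    have h3 : 0 < N := by
      rcases Nat.eq_zero_or_pos N with rfl | h0
      · exact i.elim0
      · exact h0
    have h4 : Odd (N - 1) := Nat.Even.sub_odd h3 (even_of_det_ne_zero hX x h) odd_one
    rw [h4.neg_one_pow, neg_smul, one_smul]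
  have h5 := congrFun (congrFun h1 i) j
  rwa [Matrix.transpose_apply, Matrix.neg_apply] at h5

lemma P_mem_constSq (hX : IsContactFano 𝒜 P) (p : R →ₐ[ℂ] ℂ) (v u : R) (hu : u ∈ constSq p) :
    p (P v u) = 0 := by
  rw [mem_constSq] at hu
  have h1 : u = (u - algebraMap ℂ R (p u)) + algebraMap ℂ R (p u) := by ring
  rw [h1, map_add, hX.P_algebraMap_right, add_zero]
  refine Submodule.mul_induction_on (C := fun z => p (P v z) = 0) (by rwa [sq] at hu) ?_ ?_
  · intro a ha b hb
    have ha' : p a = 0 := ha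
    have hb' : p b = 0 := hb
    rw [hX.leibniz, map_add, map_mul, map_mul, ha', hb', mul_zero, zero_mul, add_zero]
  · intro a b ha hb
    rw [map_add, map_add, ha, hb, add_zero]

/-- Homogeneous elements whose classes are a basis modulo `ℂ + (ker p)²`. -/
theorem fr_exists_homogeneous_basis (hX : IsContactFano 𝒜 P) (p : R →ₐ[ℂ] ℂ) :
    ∃ (N : ℕ) (x : Fin N → R) (d : Fin N → ℕ) (b : Basis (Fin N) ℂ (R ⧸ constSq p)),
      (∀ i, x i ∈ 𝒜 (d i)) ∧ ∀ i, b i = (constSq p).mkQ (x i) := by
  classical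
  have := hX.finiteType
  have := finiteDimensional_quotient_constSq p
  let S : Set (R ⧸ constSq p) := {w | ∃ k, ∃ r ∈ 𝒜 k, (constSq p).mkQ r = w}
  have hS : Submodule.span ℂ S = ⊤ := by
    rw [eq_top_iff]
    rintro w -
    obtain ⟨r, rfl⟩ := (constSq p).mkQ_surjective w
    rw [← DirectSum.sum_support_decompose 𝒜 r, map_sum]
    exact sum_mem fun k _ => Submodule.subset_span ⟨k, _, SetLike.coe_mem _, rfl⟩
  obtain ⟨t, htS, htspan, htli⟩ := exists_linearIndependent ℂ S
  rw [hS] at htspan
  let b0 : Basis t ℂ (R ⧸ constSq p) := Basis.mk htli (by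
    rw [Subtype.range_coe, htspan])
  have hfin : Finite t := Module.Finite.finite_basis b0
  have := Fintype.ofFinite t
  let e := Fintype.equivFin t
  have hx : ∀ i : Fin (Fintype.card t), ∃ (r : R) (k : ℕ), r ∈ 𝒜 k ∧
      (constSq p).mkQ r = (e.symm i : R ⧸ constSq p) := fun i => by
    obtain ⟨k, r, hr, hrw⟩ := htS (e.symm i).2
    exact ⟨r, k, hr, hrw⟩
  choose x d hx hxe using hx
  refine ⟨Fintype.card t, x, d, b0.reindex e, hx, fun i => ?_⟩
  rw [hxe, Basis.reindex_apply, Basis.mk_apply]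

/-- `x` is a homogeneous frame with denominator `g`: the differentials of the `x i` generate
those of all elements after multiplication by `g`, with coefficients `h`. -/
structure IsFrame (𝒜 : ℕ → Submodule ℂ R) {N : ℕ} (x : Fin N → R) (g : R)
    (h : R → Fin N → R) : Prop where
  homogeneous : ∀ i, ∃ d, x i ∈ 𝒜 d
  smul_D : ∀ r, g • KaehlerDifferential.D ℂ R r = ∑ i, h r i • KaehlerDifferential.D ℂ R (x i)

omit [GradedAlgebra 𝒜] in
/-- The relation of a frame holds for every derivation. -/
theorem IsFrame.smul_derivation {N : ℕ} {x : Fin N → R} {g : R} {h : R → Fin N → R}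
    (hF : IsFrame 𝒜 x g h) {M : Type*} [AddCommGroup M] [Module R M] [Module ℂ M]
    [IsScalarTower ℂ R M] (δ : Derivation ℂ R M) (r : R) :
    g • δ r = ∑ i, h r i • δ (x i) := by
  have h1 := congrArg δ.liftKaehlerDifferential (hF.smul_D r)
  rw [map_smul, map_sum, Derivation.liftKaehlerDifferential_comp_D] at h1
  rw [h1]
  refine Finset.sum_congr rfl fun i _ => ?_
  rw [map_smul, Derivation.liftKaehlerDifferential_comp_D]

/-- The relation of a frame for Hamiltonian derivations. -/
theorem IsFrame.mul_P (hX : IsContactFano 𝒜 P) {N : ℕ} {x : Fin N → R} {g : R}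
    {h : R → Fin N → R} (hF : IsFrame 𝒜 x g h) (a r : R) :
    g * P a r = ∑ i, h r i * P a (x i) :=
  hF.smul_derivation (hX.ham a) r

/-- Cramer's rule: every derivation is determined by its values on the frame. -/
theorem IsFrame.det_smul_derivation (hX : IsContactFano 𝒜 P) {N : ℕ} {x : Fin N → R} {g : R}
    {h : R → Fin N → R} (hF : IsFrame 𝒜 x g h) {M : Type*} [AddCommGroup M] [Module R M]
    [Module ℂ M] [IsScalarTower ℂ R M] (δ : Derivation ℂ R M) (r : R) :
    (g * (brMat P x).det) • δ r =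
      ∑ i, ∑ j, (g * ((brMat P x).adjugate i j * P (x j) r)) • δ (x i) := by
  have h1 : ∀ i, (brMat P x).det * h r i =
      ∑ j, g * ((brMat P x).adjugate i j * P (x j) r) := by
    intro i
    have h2 : ∀ j, g * P (x j) r = ((brMat P x).mulVec (h r)) j := fun j => by
      rw [hF.mul_P hX, Matrix.mulVec, dotProduct]
      exact Finset.sum_congr rfl fun k _ => by rw [brMat_apply, mul_comm]
    have h3 : (brMat P x).adjugate.mulVec ((brMat P x).mulVec (h r)) =
        (brMat P x).det • h r := by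
      rw [Matrix.mulVec_mulVec, Matrix.adjugate_mul, Matrix.smul_mulVec, Matrix.one_mulVec]
    have h4 := congrFun h3 i
    rw [Pi.smul_apply, smul_eq_mul] at h4
    rw [← h4, Matrix.mulVec, dotProduct]
    refine Finset.sum_congr rfl fun j _ => ?_
    rw [← h2]; ring
  rw [mul_comm g, mul_smul, hF.smul_derivation, Finset.smul_sum]
  refine Finset.sum_congr rfl fun i _ => ?_
  rw [smul_smul, h1, Finset.sum_smul]

/-- (A) Frames at a closed nonvertex point. -/
theorem exists_frame (hX : IsContactFano 𝒜 P) {p : R →ₐ[ℂ] ℂ} (hp : ¬ IsVertex 𝒜 p) :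
    ∃ (N : ℕ) (x : Fin N → R) (g : R) (h : R → Fin N → R),
      IsFrame 𝒜 x g h ∧ p (g * (brMat P x).det) ≠ 0 := by
  classical
  have := hX.finiteType
  obtain ⟨N, x, d, b, hxd, hb⟩ := fr_exists_homogeneous_basis hX p
  set 𝔪 := RingHom.ker p with h𝔪
  -- nondegeneracy
  have hdet : p (brMat P x).det ≠ 0 := by
    rw [AlgHom.map_det]
    intro h0
    obtain ⟨c, hc, hc0⟩ := Matrix.exists_mulVec_eq_zero_iff.mpr h0
    have h1 : (∑ i, c i • x i) ∈ constSq p := by
      rw [mem_constSq]
      refine hX.nondegenerate p hp _ fun v => ?_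
      rw [hX.skew, map_neg, neg_eq_zero]
      -- `p (P v (∑ c i x i)) = 0`
      obtain ⟨a, ha⟩ : ∃ a : Fin N → ℂ, v - ∑ j, a j • x j ∈ constSq p := by
        refine ⟨fun j => b.repr ((constSq p).mkQ v) j, ?_⟩
        rw [← Submodule.Quotient.mk_eq_zero, ← Submodule.mkQ_apply, map_sub, map_sum, sub_eq_zero]
        conv_lhs => rw [← b.sum_repr ((constSq p).mkQ v)]
        refine Finset.sum_congr rfl fun i _ => ?_
        rw [map_smul, hb]
      have h2 : p (P (v - ∑ j, a j • x j) (∑ i, c i • x i)) = 0 := by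
        rw [hX.skew, map_neg, P_mem_constSq hX p _ _ ha, neg_zero]
      have h3 : p (P (∑ j, a j • x j) (∑ i, c i • x i)) = 0 := by
        have e1 : P (∑ j, a j • x j) = ∑ j, a j • P (x j) := by
          rw [map_sum]
          exact Finset.sum_congr rfl fun j _ => map_smul _ _ _
        rw [e1, LinearMap.sum_apply, map_sum]
        refine Finset.sum_eq_zero fun j _ => ?_
        rw [LinearMap.smul_apply, map_smul, map_sum, map_sum]
        have h4 := congrFun hc0 j
        simp only [Matrix.mulVec, dotProduct, AlgHom.mapMatrix_apply, Matrix.map_apply,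
          brMat_apply, Pi.zero_apply] at h4
        have h5 : (∑ i, p (P (x j) (c i • x i))) = 0 := by
          rw [← h4]
          refine Finset.sum_congr rfl fun i _ => ?_
          rw [map_smul, map_smul, smul_eq_mul, mul_comm]
        rw [h5, smul_zero]
      rw [map_sub, LinearMap.sub_apply, map_sub, h3, sub_zero] at h2
      exact h2
    have h2 : (∑ i, c i • b i) = 0 := by
      rw [← Submodule.Quotient.mk_eq_zero, ← Submodule.mkQ_apply, map_sum] at h1
      rw [← h1]
      refine Finset.sum_congr rfl fun i _ => ?_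
      rw [map_smul, hb]
    exact hc (funext fun i => Fintype.linearIndependent_iff.mp b.linearIndependent c h2 i)
  -- differentials
  let Q : Submodule R (Ω[R⁄ℂ]) :=
    Submodule.span R (Set.range fun i => KaehlerDifferential.D ℂ R (x i))
  have hsup : (⊤ : Submodule R (Ω[R⁄ℂ])) ≤ Q ⊔ 𝔪 • (⊤ : Submodule R (Ω[R⁄ℂ])) := by
    refine le_trans (KaehlerDifferential.span_range_derivation ℂ R).ge ?_
    rw [Submodule.span_le]
    rintro _ ⟨r, rfl⟩
    obtain ⟨a, ha⟩ : ∃ a : Fin N → ℂ, r - ∑ j, a j • x j ∈ constSq p := by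
      refine ⟨fun j => b.repr ((constSq p).mkQ r) j, ?_⟩
      rw [← Submodule.Quotient.mk_eq_zero, ← Submodule.mkQ_apply, map_sub, map_sum, sub_eq_zero]
      conv_lhs => rw [← b.sum_repr ((constSq p).mkQ r)]
      refine Finset.sum_congr rfl fun i _ => ?_
      rw [map_smul, hb]
    obtain ⟨u, hu⟩ : ∃ u, u = r - ∑ j, a j • x j := ⟨_, rfl⟩
    rw [← hu] at ha
    have h1 : KaehlerDifferential.D ℂ R r = (∑ j, a j • KaehlerDifferential.D ℂ R (x j)) +
        KaehlerDifferential.D ℂ R (u - algebraMap ℂ R (p u)) := by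
      have h2 : r = (∑ j, a j • x j) + u := by rw [hu]; ring
      conv_lhs => rw [h2]
      rw [map_add, map_sub (KaehlerDifferential.D ℂ R) u, Derivation.map_algebraMap, sub_zero,
        map_sum]
      congr 1
      exact Finset.sum_congr rfl fun j _ => Derivation.map_smul _ _ _
    rw [SetLike.mem_coe, h1]
    refine add_mem (Submodule.mem_sup_left ?_) (Submodule.mem_sup_right ?_)
    · refine sum_mem fun j _ => ?_
      rw [← algebraMap_smul R (a j)]
      exact Submodule.smul_mem _ _ (Submodule.subset_span ⟨j, rfl⟩)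
    · rw [mem_constSq, sq] at ha
      refine Submodule.mul_induction_on (C := fun z => KaehlerDifferential.D ℂ R z ∈
        𝔪 • (⊤ : Submodule R (Ω[R⁄ℂ]))) ha ?_ ?_
      · intro a ha b hb
        rw [Derivation.leibniz]
        exact add_mem (Submodule.smul_mem_smul ha trivial) (Submodule.smul_mem_smul hb trivial)
      · intro a b ha hb
        rw [map_add]
        exact add_mem ha hb
  obtain ⟨g, hg1, hg⟩ := Submodule.exists_sub_one_mem_and_smul_le_of_fg_of_le_sup
    (N' := (⊤ : Submodule R (Ω[R⁄ℂ]))) (Module.Finite.fg_top) le_rfl hsup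
  have hgp : p g ≠ 0 := by
    have h1 : p (g - 1) = 0 := hg1
    rw [map_sub, map_one, sub_eq_zero] at h1
    rw [h1]; exact one_ne_zero
  have hh : ∀ r, ∃ h : Fin N → R,
      g • KaehlerDifferential.D ℂ R r = ∑ i, h i • KaehlerDifferential.D ℂ R (x i) := by
    intro r
    have h1 : g • KaehlerDifferential.D ℂ R r ∈ Q := hg (Submodule.smul_mem_pointwise_smul _ _ _ trivial)
    obtain ⟨c, hc⟩ := (Submodule.mem_span_range_iff_exists_fun R).mp h1
    exact ⟨c, hc.symm⟩
  choose h hh using hh
  exact ⟨N, x, g, h, ⟨fun i => ⟨d i, hxd i⟩, hh⟩, by rw [map_mul]; exact mul_ne_zero hgp hdet⟩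

/-- (A) Frames at a prime that does not contain the irrelevant ideal. -/
theorem exists_frame_of_prime (hX : IsContactFano 𝒜 P) (I : Ideal R) (hI : I.IsPrime) {k : ℕ}
    (hk : 0 < k) {r : R} (hr : r ∈ 𝒜 k) (hrI : r ∉ I) :
    ∃ (N : ℕ) (x : Fin N → R) (g : R) (h : R → Fin N → R),
      IsFrame 𝒜 x g h ∧ g * (brMat P x).det ∉ I := by
  obtain ⟨p, hp1, hp2⟩ := exists_closed_of_prime hX I
    (fun r n h => hI.mem_of_pow_mem n h) r hrI
  have hp : ¬ IsVertex 𝒜 p := fun hv => hp2 (hv k hk r hr)
  obtain ⟨N, x, g, h, hF, hg⟩ := exists_frame hX hp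
  exact ⟨N, x, g, h, hF, fun hmem => hg (hp1 _ hmem)⟩

/-- (A) Frames at a point with values in a domain. -/
theorem exists_frame_of_point (hX : IsContactFano 𝒜 P) {B : Type v} [CommRing B] [IsDomain B]
    [Algebra ℂ B] (q : R →ₐ[ℂ] B) {k : ℕ} (hk : 0 < k) {r : R} (hr : r ∈ 𝒜 k) (hrq : q r ≠ 0) :
    ∃ (N : ℕ) (x : Fin N → R) (g : R) (h : R → Fin N → R),
      IsFrame 𝒜 x g h ∧ q (g * (brMat P x).det) ≠ 0 := by
  obtain ⟨N, x, g, h, hF, hg⟩ := exists_frame_of_prime hX (RingHom.ker q)
    (RingHom.ker_isPrime q) hk hr (by rwa [RingHom.mem_ker])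
  exact ⟨N, x, g, h, hF, fun h0 => hg (by rwa [RingHom.mem_ker])⟩

end Vale.Agent.P292
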